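import Vale.Agent.P202.MUniv

/-! Lech's conjecture. -/

namespace Vale.Agent.Results.P202.Full

open IsLocalRing Filter Topology

universe u v

theorem result (R : Type u) (S : Type v)
    [CommRing R] [IsLocalRing R] [IsNoetherianRing R]
    [CommRing S] [IsLocalRing S] [IsNoetherianRing S]
    [Algebra R S] [IsLocalHom (algebraMap R S)] [Module.Flat R S]
    (d D : ℕ) (hd : ringKrullDim R = d) (hD : ringKrullDim S = D) :
    (∀ N : ℕ, Module.length R (R ⧸ maximalIdeal R ^ N) ≠ ⊤) ∧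
    (∀ N : ℕ, Module.length S (S ⧸ maximalIdeal S ^ N) ≠ ⊤) ∧
    ∃ eR eS : ℝ,
      Tendsto (fun N : ℕ => (d.factorial : ℝ) *
        ((Module.length R (R ⧸ maximalIdeal R ^ N)).toNat : ℝ) / (N : ℝ) ^ d) atTop (𝓝 eR) ∧
      Tendsto (fun N : ℕ => (D.factorial : ℝ) *
        ((Module.length S (S ⧸ maximalIdeal S ^ N)).toNat : ℝ) / (N : ℝ) ^ D) atTop (𝓝 eS) ∧
      eR ≤ eS :=
  Vale.Agent.P202.lech_univ R S d D hd hD

end Vale.Agent.Results.P202.Full
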